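import Mathlib

/-!
P114: self-similar systems made of blocks with complete residue systems of integer digits, the
entropy of their random compositions and the lower dimension of a measure.
-/

open MeasureTheory

namespace Vale.Agent.P114.Blocks

/-- The composition of the maps along a word. -/
def wordMap {Λ : Type*} (φ : Λ → ℝ → ℝ) : (n : ℕ) → (Fin n → Λ) → ℝ → ℝ
  | 0, _ => id
  | n + 1, w => φ (w 0) ∘ wordMap φ n (Fin.tail w)

/-- The Shannon entropy in base two of the random composition of `n` maps. -/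
noncomputable def walkH {Λ : Type*} [Fintype Λ] (φ : Λ → ℝ → ℝ) (p : Λ → ℝ) (n : ℕ) : ℝ := by
  classical
  exact -∑ g ∈ Finset.univ.image (wordMap φ n),
    (∑ w with wordMap φ n w = g, ∏ i, p (w i)) *
      Real.logb 2 (∑ w with wordMap φ n w = g, ∏ i, p (w i))

/-- The entropy rate of the random walk: the infimum of the normalised entropies. -/
noncomputable def walkRate {Λ : Type*} [Fintype Λ] (φ : Λ → ℝ → ℝ) (p : Λ → ℝ) : ℝ :=
  ⨅ n : ℕ, walkH φ p (n + 1) / (n + 1)

/-- The lower Hausdorff dimension of a measure. -/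
noncomputable def lowerDim (μ : Measure ℝ) : ENNReal :=
  ⨅ (E : Set ℝ) (_ : MeasurableSet E) (_ : 0 < μ E), dimH E

/-- The maps of the blocks: block `s` has ratio `ε s / M s` and the translations `(t s + d) / M s`,
`d` running through `dig s`. -/
noncomputable def blockMap {S : Type*} (M : S → ℕ) (ε : S → ℤ) (t : S → ℝ)
    (dig : (s : S) → Fin (M s) → ℤ) (l : Σ s, Fin (M s)) (x : ℝ) : ℝ :=
  ((ε l.1 : ℝ) * x + t l.1 + (dig l.1 l.2 : ℝ)) / (M l.1 : ℝ)

end Vale.Agent.P114.Blocks
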