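import Vale.Agent.P114.Blocks.Defs

/-!
P114: the measure of a block system lies below Lebesgue measure, and the entropy of its random
compositions is at least the Lyapunov exponent.
-/

open MeasureTheory Set Finset

namespace Vale.Agent.P114.Blocks

variable {S : Type*} [Fintype S] {M : S → ℕ} {ε : S → ℤ} {t : S → ℝ}
  {dig : (s : S) → Fin (M s) → ℤ} {q : S → ℝ}

omit [Fintype S] in
/-- Along fixed blocks the compositions are translates of one map by integers which are distinct
modulo the product of the moduli. -/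
theorem exists_digits (hε : ∀ s, ε s = 1 ∨ ε s = -1)
    (hdig : ∀ s j j', (M s : ℤ) ∣ dig s j - dig s j' → j = j') (hM : ∀ s, 2 ≤ M s) :
    ∀ (n : ℕ) (b : Fin n → S), ∃ (σ : ℤ) (T : ℝ) (k : ((i : Fin n) → Fin (M (b i))) → ℤ),
      (σ = 1 ∨ σ = -1) ∧
      (∀ j x, wordMap (blockMap M ε t dig) n (fun i => ⟨b i, j i⟩) x
        = ((σ : ℝ) * x + T + k j) / ((∏ i, M (b i) : ℕ) : ℝ)) ∧
      ∀ j j', ((∏ i, M (b i) : ℕ) : ℤ) ∣ k j - k j' → j = j'
  | 0, b => ⟨1, 0, fun _ => 0, Or.inl rfl, fun j x => by simp [wordMap],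
      fun j j' _ => funext fun i => i.elim0⟩
  | n + 1, b => by
    obtain ⟨σ, T, k, hσ, hk, hinj⟩ := exists_digits hε hdig hM n (Fin.tail b)
    set P : ℕ := ∏ i, M (Fin.tail b i) with hP
    have hP0 : 0 < P := Finset.prod_pos fun i _ => by linarith [hM (Fin.tail b i)]
    refine ⟨ε (b 0) * σ, (ε (b 0) : ℝ) * T + (P : ℝ) * t (b 0),
      fun j => ε (b 0) * k (fun i : Fin n => j i.succ) + (P : ℤ) * dig (b 0) (j 0), ?_, fun j x => ?_,
      fun j j' h => ?_⟩
    · rcases hε (b 0) with e | e <;> rcases hσ with e' | e' <;> simp [e, e']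
    · have h1 : wordMap (blockMap M ε t dig) (n + 1) (fun i => ⟨b i, j i⟩) x
          = blockMap M ε t dig ⟨b 0, j 0⟩
              (((σ : ℝ) * x + T + k (fun i : Fin n => j i.succ)) / (P : ℝ)) :=
        congrArg _ (hk (fun i : Fin n => j i.succ) x)
      rw [h1, blockMap, Fin.prod_univ_succ]
      have hPr : (P : ℝ) ≠ 0 := Nat.cast_ne_zero.2 hP0.ne'
      have hM0 : (M (b 0) : ℝ) ≠ 0 := Nat.cast_ne_zero.2 (by linarith [hM (b 0)])
      push_cast
      rw [show (∏ i : Fin n, (M (b i.succ) : ℝ)) = (P : ℝ) by rw [hP, Nat.cast_prod]; rfl]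
      field_simp
      ring
    · rw [Fin.prod_univ_succ, Nat.cast_mul] at h
      change (M (b 0) : ℤ) * (P : ℤ) ∣ _ at h
      have hsplit : ε (b 0) * k (fun i : Fin n => j i.succ) + (P : ℤ) * dig (b 0) (j 0)
          - (ε (b 0) * k (fun i : Fin n => j' i.succ) + (P : ℤ) * dig (b 0) (j' 0))
          = ε (b 0) * (k (fun i : Fin n => j i.succ) - k (fun i : Fin n => j' i.succ))
            + (P : ℤ) * (dig (b 0) (j 0) - dig (b 0) (j' 0)) := by ring
      rw [hsplit] at h
      have htail : (fun i : Fin n => j i.succ) = fun i : Fin n => j' i.succ := by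
        refine hinj _ _ ?_
        have h2 := (dvd_add_left (Dvd.intro _ rfl)).1 ((dvd_mul_left (P : ℤ) _).trans h)
        rcases hε (b 0) with e | e
        · rwa [e, one_mul] at h2
        · rwa [e, neg_one_mul, dvd_neg] at h2
      rw [htail, sub_self, mul_zero, zero_add, mul_comm] at h
      have h0 := hdig _ _ _ ((mul_dvd_mul_iff_left (Int.natCast_ne_zero.2 hP0.ne')).1 h)
      funext i
      refine Fin.cases h0 (fun i => ?_) i
      exact congrFun htail i

/-- Integers in a translate of an interval are at most one more than its length. -/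
theorem count_le {ι : Type*} [Fintype ι] (k : ι → ℤ) (hk : Function.Injective k) (y A B : ℝ)
    (hAB : A ≤ B) : ∑ j, (Icc A B).indicator (1 : ℝ → ℝ) (y + k j) ≤ B - A + 1 := by
  classical
  set F := (univ.filter fun j => y + (k j : ℝ) ∈ Icc A B) with hF
  have e : ∑ j, (Icc A B).indicator (1 : ℝ → ℝ) (y + k j) = (F.card : ℝ) := by
    rw [hF, ← Finset.sum_boole]
    simp [Set.indicator_apply]
  rw [e]
  have hsub : F.image k ⊆ Finset.Icc ⌈A - y⌉ ⌊B - y⌋ := fun i hi => by
    obtain ⟨j, hj, rfl⟩ := Finset.mem_image.1 hi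
    obtain ⟨h1, h2⟩ := (Finset.mem_filter.1 hj).2
    exact Finset.mem_Icc.2 ⟨Int.ceil_le.2 (by linarith), Int.le_floor.2 (by linarith)⟩
  have h1 := Finset.card_le_card hsub
  rw [Finset.card_image_of_injective _ hk, Int.card_Icc] at h1
  refine (Nat.cast_le.2 h1).trans ?_
  rcases le_or_gt 0 (⌊B - y⌋ + 1 - ⌈A - y⌉) with h | h
  · have h2 : ((⌊B - y⌋ + 1 - ⌈A - y⌉).toNat : ℝ) = ((⌊B - y⌋ + 1 - ⌈A - y⌉ : ℤ) : ℝ) := by
      rw [← Int.cast_natCast, Int.toNat_of_nonneg h]
    rw [h2]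
    push_cast
    linarith [Int.floor_le (B - y), Int.le_ceil (A - y)]
  · rw [Int.toNat_of_nonpos h.le, Nat.cast_zero]
    linarith

omit [Fintype S] in
theorem measurable_wordMap {Λ : Type*} {φ : Λ → ℝ → ℝ} (hφ : ∀ l, Measurable (φ l)) :
    ∀ n (w : Fin n → Λ), Measurable (wordMap φ n w)
  | 0, _ => measurable_id
  | n + 1, w => (hφ _).comp (measurable_wordMap hφ n (Fin.tail w))

omit [Fintype S] in
/-- The equation of a self-similar measure, along words. -/
theorem iterate {Λ : Type*} [Fintype Λ] {φ : Λ → ℝ → ℝ} (hφ : ∀ l, Measurable (φ l)) {p : Λ → ℝ}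
    (hp : ∀ l, 0 ≤ p l) {μ : Measure ℝ}
    (hμ : μ = ∑ l, ENNReal.ofReal (p l) • μ.map (φ l)) :
    ∀ (n : ℕ) {E : Set ℝ}, MeasurableSet E →
      μ E = ∑ w : Fin n → Λ, ENNReal.ofReal (∏ i, p (w i)) * μ (wordMap φ n w ⁻¹' E)
  | 0, E, _ => by simp [wordMap]
  | n + 1, E, hE => by
    conv_lhs => rw [hμ]
    rw [Measure.finsetSum_apply, ← (Fin.consEquiv fun _ => Λ).sum_comp, Fintype.sum_prod_type]
    refine Finset.sum_congr rfl fun l _ => ?_
    rw [Measure.smul_apply, smul_eq_mul, Measure.map_apply (hφ l) hE,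
      iterate hφ hp hμ n (hE.preimage (hφ l)), Finset.mul_sum]
    refine Finset.sum_congr rfl fun w _ => ?_
    simp only [Fin.consEquiv_apply, Fin.prod_univ_succ, Fin.cons_zero, Fin.cons_succ, wordMap]
    rw [ENNReal.ofReal_mul (hp l), mul_assoc]
    rfl

/-- The words along which the blocks are fixed. -/
def wordEquiv (M : S → ℕ) (n : ℕ) :
    (Fin n → Σ s, Fin (M s)) ≃ Σ b : Fin n → S, (i : Fin n) → Fin (M (b i)) where
  toFun w := ⟨fun i => (w i).1, fun i => (w i).2⟩
  invFun u := fun i => ⟨u.1 i, u.2 i⟩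
  left_inv _ := rfl
  right_inv _ := rfl

theorem sum_words {n : ℕ} (G : (Fin n → Σ s, Fin (M s)) → ℝ) :
    ∑ w, G w = ∑ b : Fin n → S, ∑ j : (i : Fin n) → Fin (M (b i)), G fun i => ⟨b i, j i⟩ := by
  classical
  rw [← (wordEquiv M n).symm.sum_comp, Fintype.sum_sigma]
  rfl

/-- The masses of distinct compositions add up to at most one. -/
theorem sum_fibre_le {W G ι : Type*} [Fintype W] [Fintype ι] [DecidableEq G] (F : W → G) {wt : W → ℝ}
    (h0 : ∀ w, 0 ≤ wt w) (h1 : ∑ w, wt w = 1) {e : ι → G} (he : Function.Injective e) :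
    ∑ j, ∑ w with F w = e j, wt w ≤ 1 := by
  classical
  rw [← Finset.sum_biUnion fun j _ j' _ hjj => Finset.disjoint_left.2 fun w hw hw' =>
    hjj (he ((Finset.mem_filter.1 hw).2.symm.trans (Finset.mem_filter.1 hw').2))]
  exact (Finset.sum_le_univ_sum_of_nonneg fun w => h0 w).trans_eq h1

variable {n : ℕ} (hε : ∀ s, ε s = 1 ∨ ε s = -1) (hdig : ∀ s j j', (M s : ℤ) ∣ dig s j - dig s j' → j = j')
  (hM : ∀ s, 2 ≤ M s) (hq : ∀ s, 0 ≤ q s) (hq1 : ∑ s, q s = 1)

include hε hdig hM hq hq1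

/-- An interval has at most its length. -/
theorem interval_le {μ : Measure ℝ} [IsProbabilityMeasure μ]
    (hμ : μ = ∑ l : (Σ s, Fin (M s)),
      ENNReal.ofReal (q l.1 / M l.1) • μ.map (blockMap M ε t dig l))
    {A B : ℝ} (hAB : A ≤ B) : μ.real (Icc A B) ≤ B - A := by
  classical
  have hφ : ∀ l, Measurable (blockMap M ε t dig l) := fun l => by unfold blockMap; fun_prop
  have hp : ∀ l : (Σ s, Fin (M s)), 0 ≤ q l.1 / (M l.1 : ℝ) := fun l => div_nonneg (hq _) (Nat.cast_nonneg _)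
  have key : ∀ n : ℕ, μ.real (Icc A B) ≤ B - A + (1 / 2) ^ n := fun n => by
    have h := iterate hφ hp hμ n (measurableSet_Icc (a := A) (b := B))
    have h' : μ.real (Icc A B) = ∑ w : Fin n → Σ s, Fin (M s),
        (∏ i, q (w i).1 / M (w i).1) * μ.real (wordMap (blockMap M ε t dig) n w ⁻¹' Icc A B) := by
      rw [measureReal_def, h, ENNReal.toReal_sum fun w _ =>
        ENNReal.mul_ne_top ENNReal.ofReal_ne_top (measure_ne_top μ _)]
      exact Finset.sum_congr rfl fun w _ => by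
        rw [ENNReal.toReal_mul, ENNReal.toReal_ofReal (Finset.prod_nonneg fun i _ => hp _)]
        rfl
    rw [h', sum_words]
    refine (Finset.sum_le_sum fun b _ => ?_).trans_eq
      (show ∑ b : Fin n → S, (∏ i, q (b i)) * (B - A + (1 / 2) ^ n) = B - A + (1 / 2) ^ n by
        rw [← Finset.sum_mul, ← Fintype.prod_sum (f := fun (_ : Fin n) s => q s)]
        simp [hq1])
    obtain ⟨σ, T, k, -, hk, hinj⟩ := exists_digits (t := t) hε hdig hM n b
    set P : ℕ := ∏ i, M (b i) with hP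
    have hP0 : (0 : ℝ) < P := Nat.cast_pos.2 (Finset.prod_pos fun i _ => by linarith [hM (b i)])
    have hP2 : (2 : ℝ) ^ n ≤ P := by
      rw [hP, Nat.cast_prod]
      calc (2 : ℝ) ^ n = ∏ _i : Fin n, (2 : ℝ) := by simp
        _ ≤ _ := Finset.prod_le_prod (fun _ _ => by norm_num) fun i _ => by exact_mod_cast hM (b i)
    simp only
    rw [← Finset.mul_sum, Finset.prod_div_distrib, ← Nat.cast_prod, ← hP, div_mul_eq_mul_div,
      mul_div_assoc]
    refine mul_le_mul_of_nonneg_left ?_ (Finset.prod_nonneg fun i _ => hq _)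
    rw [div_le_iff₀ hP0]
    have hpre : ∀ j, wordMap (blockMap M ε t dig) n (fun i => ⟨b i, j i⟩) ⁻¹' Icc A B
        = (fun x => (σ : ℝ) * x + T + k j) ⁻¹' Icc (A * P) (B * P) := fun j => by
      ext x
      simp only [Set.mem_preimage, Set.mem_Icc, hk, le_div_iff₀ hP0, div_le_iff₀ hP0]
    have hmeas : ∀ j, MeasurableSet
        ((fun x => (σ : ℝ) * x + T + k j) ⁻¹' Icc (A * P) (B * P)) := fun j =>
      measurableSet_Icc.preimage (by fun_prop)
    have e : ∀ j, μ.real ((fun x => (σ : ℝ) * x + T + k j) ⁻¹' Icc (A * P) (B * P))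
        = ∫ x, (Icc (A * P) (B * P)).indicator (1 : ℝ → ℝ) ((σ : ℝ) * x + T + k j) ∂μ := fun j => by
      rw [← integral_indicator_one (hmeas j)]
      rfl
    have hi : ∀ j, Integrable
        (fun x => (Icc (A * P) (B * P)).indicator (1 : ℝ → ℝ) ((σ : ℝ) * x + T + k j)) μ :=
      fun j => ((integrable_const (μ := μ) (1 : ℝ)).indicator (hmeas j) :)
    simp only [hpre, e]
    rw [← integral_finsetSum _ fun j _ => hi j]
    refine (integral_mono (integrable_finsetSum _ fun j _ => hi j) (integrable_const _) fun x =>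
      count_le k (fun j j' h => hinj j j' (by rw [h, sub_self]; exact dvd_zero _)) _ _ _
        (mul_le_mul_of_nonneg_right hAB hP0.le)).trans ?_
    have h2 : (1 : ℝ) ≤ (1 / 2) ^ n * P := by
      rw [div_pow, one_pow, div_mul_eq_mul_div, one_mul, le_div_iff₀ (by positivity), one_mul]
      exact hP2
    simp only [integral_const, probReal_univ, one_smul]
    linarith
  have hlim : Filter.Tendsto (fun n : ℕ => B - A + (1 / 2 : ℝ) ^ n) Filter.atTop (nhds (B - A)) := by
    simpa using (tendsto_pow_atTop_nhds_zero_of_lt_one (by norm_num : (0 : ℝ) ≤ 1 / 2)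
      (by norm_num)).const_add (B - A)
  exact ge_of_tendsto' hlim key

/-- The measure is below Lebesgue measure. -/
theorem le_volume {μ : Measure ℝ} [IsProbabilityMeasure μ]
    (hμ : μ = ∑ l : (Σ s, Fin (M s)),
      ENNReal.ofReal (q l.1 / M l.1) • μ.map (blockMap M ε t dig l))
    (E : Set ℝ) : μ E ≤ volume E := by
  have h : μ.toOuterMeasure ≤ StieltjesFunction.id.outer := by
    refine OuterMeasure.le_ofFunction.2 fun s => ?_
    rw [StieltjesFunction.length_eq]
    refine le_iInf fun a => le_iInf fun b => le_iInf fun hs => ?_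
    have hs' : s ⊆ Ioc a b := fun x hx =>
      hs ⟨hx, fun hb : IsBot x => absurd (hb (x - 1)) (by linarith)⟩
    refine (μ.mono hs').trans ?_
    rcases le_or_gt a b with hab | hab
    · refine (μ.mono Ioc_subset_Icc_self).trans ?_
      change μ (Icc a b) ≤ _
      rw [← ofReal_measureReal, StieltjesFunction.id_apply, StieltjesFunction.id_apply]
      exact ENNReal.ofReal_le_ofReal (interval_le hε hdig hM hq hq1 hμ hab)
    · simp [Ioc_eq_empty_of_le hab.le]
  refine (h E).trans (le_of_eq ?_)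
  rw [Real.volume_eq_stieltjes_id, StieltjesFunction.measure_def]
  rfl

theorem lowerDim_eq_one {μ : Measure ℝ} [IsProbabilityMeasure μ]
    (hμ : μ = ∑ l : (Σ s, Fin (M s)),
      ENNReal.ofReal (q l.1 / M l.1) • μ.map (blockMap M ε t dig l)) :
    lowerDim μ = 1 := by
  refine le_antisymm ((iInf_le _ univ).trans ((iInf_le _ MeasurableSet.univ).trans
    ((iInf_le _ (by simp)).trans_eq Real.dimH_univ))) (le_iInf fun E => le_iInf fun _ =>
      le_iInf fun hpos => not_lt.1 fun hlt => ?_)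
  have h0 : (μH[((1 : NNReal) : ℝ)] : Measure ℝ) E = 0 :=
    hausdorffMeasure_of_dimH_lt (by simpa using hlt)
  rw [NNReal.coe_one, hausdorffMeasure_real] at h0
  exact hpos.ne' (le_antisymm ((le_volume hε hdig hM hq hq1 hμ E).trans h0.le) zero_le)

omit [Fintype S] hε hdig hM hq hq1 in
/-- A bound on the entropy of compositions by a reference weight of the words. -/
theorem walkH_ge_ref {Λ : Type*} [Fintype Λ] {φ : Λ → ℝ → ℝ} {p : Λ → ℝ} (hp : ∀ l, 0 < p l)
    (hp1 : ∑ l, p l = 1) {n : ℕ} {P : (Fin n → Λ) → ℝ} (hP : ∀ w, 0 < P w)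
    (hcond : ∑ w : Fin n → Λ, (∏ i, p (w i))
      * (open Classical in ∑ v with wordMap φ n v = wordMap φ n w, ∏ i, p (v i)) * P w ≤ 1) :
    ∑ w : Fin n → Λ, (∏ i, p (w i)) * Real.logb 2 (P w) ≤ walkH φ p n := by
  classical
  have hprod : ∀ w : Fin n → Λ, 0 < ∏ i, p (w i) := fun w => Finset.prod_pos fun i _ => hp _
  have hm : ∀ w : Fin n → Λ, 0 < ∑ v with wordMap φ n v = wordMap φ n w, ∏ i, p (v i) := fun w =>
    (hprod w).trans_le (Finset.single_le_sum (f := fun w => ∏ i, p (w i))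
      (fun v _ => (hprod v).le) (by simp))
  have hH : walkH φ p n = -∑ w : Fin n → Λ, (∏ i, p (w i))
      * Real.logb 2 (∑ v with wordMap φ n v = wordMap φ n w, ∏ i, p (v i)) := by
    rw [walkH, ← Finset.sum_fiberwise_of_maps_to
      (fun w _ => Finset.mem_image_of_mem (wordMap φ n) (Finset.mem_univ w))]
    refine congrArg Neg.neg (Finset.sum_congr rfl fun g _ => ?_)
    rw [Finset.sum_mul]
    exact Finset.sum_congr rfl fun w hw => by rw [(Finset.mem_filter.1 hw).2]
  have hsum1 : ∑ w : Fin n → Λ, ∏ i, p (w i) = 1 := by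
    rw [← Fintype.prod_sum (f := fun (_ : Fin n) l => p l)]
    simp [hp1]
  have h2 : (0 : ℝ) < Real.log 2 := Real.log_pos one_lt_two
  have hpt : ∀ w : Fin n → Λ, (∏ i, p (w i))
      * (Real.logb 2 (∑ v with wordMap φ n v = wordMap φ n w, ∏ i, p (v i))
        + Real.logb 2 (P w)) * Real.log 2
      ≤ (∏ i, p (w i)) * (∑ v with wordMap φ n v = wordMap φ n w, ∏ i, p (v i)) * P w
        - ∏ i, p (w i) := fun w => by
    have h := mul_le_mul_of_nonneg_left
      (Real.log_le_sub_one_of_pos (mul_pos (hm w) (hP w))) (hprod w).le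
    rw [Real.log_mul (hm w).ne' (hP w).ne'] at h
    rw [Real.logb, Real.logb, ← add_div, mul_assoc, div_mul_cancel₀ _ h2.ne']
    linarith
  have h := Finset.sum_le_sum (s := Finset.univ) fun w _ => hpt w
  rw [← Finset.sum_mul, Finset.sum_sub_distrib, hsum1] at h
  have h3 := nonpos_of_mul_nonpos_left (h.trans (by linarith)) h2
  simp only [mul_add, Finset.sum_add_distrib] at h3
  rw [hH]
  linarith

/-- Conditioning on the blocks. -/
theorem cond_le :
    ∑ w : Fin n → Σ s, Fin (M s), (∏ i, q (w i).1 / (M (w i).1 : ℝ))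
      * (open Classical in ∑ v with wordMap (blockMap M ε t dig) n v = wordMap (blockMap M ε t dig) n w,
          ∏ i, q (v i).1 / (M (v i).1 : ℝ)) * (∏ i, (M (w i).1 : ℝ)) ≤ 1 := by
  classical
  have hM0 : ∀ s, (M s : ℝ) ≠ 0 := fun s => Nat.cast_ne_zero.2 (by linarith [hM s])
  have hp : ∀ l : (Σ s, Fin (M s)), 0 ≤ q l.1 / (M l.1 : ℝ) := fun l =>
    div_nonneg (hq _) (Nat.cast_nonneg _)
  have hsum1 : ∑ w : Fin n → Σ s, Fin (M s), ∏ i, q (w i).1 / (M (w i).1 : ℝ) = 1 := by
    rw [← Fintype.prod_sum (f := fun (_ : Fin n) (l : Σ s, Fin (M s)) => q l.1 / (M l.1 : ℝ))]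
    refine Finset.prod_eq_one fun i _ => ?_
    rw [Fintype.sum_sigma]
    simp only [Finset.sum_const, Finset.card_univ, Fintype.card_fin, nsmul_eq_mul]
    exact (Finset.sum_congr rfl fun s _ => mul_div_cancel₀ _ (hM0 s)).trans hq1
  rw [sum_words]
  refine (Finset.sum_le_sum fun b _ => ?_).trans_eq
    (show ∑ b : Fin n → S, ∏ i, q (b i) = 1 by
      rw [← Fintype.prod_sum (f := fun (_ : Fin n) s => q s)]; simp [hq1])
  obtain ⟨σ, T, k, -, hk, hinj⟩ := exists_digits (t := t) hε hdig hM n b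
  have hP0 : ((∏ i, M (b i) : ℕ) : ℝ) ≠ 0 :=
    Nat.cast_ne_zero.2 (Finset.prod_pos fun i _ => by linarith [hM (b i)]).ne'
  have hi : Function.Injective fun j : (i : Fin n) → Fin (M (b i)) =>
      wordMap (blockMap M ε t dig) n fun i => ⟨b i, j i⟩ := fun j j' hjj => by
    have h0 := congrFun hjj 0
    simp only [hk, div_left_inj' hP0, add_right_inj, Int.cast_inj] at h0
    exact hinj j j' (by rw [h0, sub_self]; exact dvd_zero _)
  refine le_trans (le_of_eq ?_) (mul_le_of_le_one_right (Finset.prod_nonneg fun i _ => hq (b i))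
    (sum_fibre_le (wordMap (blockMap M ε t dig) n)
      (fun w => Finset.prod_nonneg fun i _ => hp (w i)) hsum1 hi))
  rw [Finset.mul_sum]
  refine Finset.sum_congr rfl fun j _ => ?_
  simp only
  rw [mul_right_comm, ← Finset.prod_mul_distrib]
  exact congrArg (· * _) (Finset.prod_congr rfl fun i _ => div_mul_cancel₀ _ (hM0 _))

omit hε hdig hq in
/-- The mean of the logarithm of the moduli along a word. -/
theorem mean_logb :
    ∑ w : Fin n → Σ s, Fin (M s), (∏ i, q (w i).1 / (M (w i).1 : ℝ))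
      * Real.logb 2 (∏ i, (M (w i).1 : ℝ)) = (n : ℝ) * ∑ s, q s * Real.logb 2 (M s) := by
  classical
  have hM0 : ∀ s, (M s : ℝ) ≠ 0 := fun s => Nat.cast_ne_zero.2 (by linarith [hM s])
  have hl : ∀ w : Fin n → Σ s, Fin (M s),
      Real.logb 2 (∏ i, (M (w i).1 : ℝ)) = ∑ i, Real.logb 2 (M (w i).1) := fun w =>
    Real.logb_prod (Finset.univ : Finset (Fin n)) (fun i => (M (w i).1 : ℝ)) fun i _ => hM0 _
  simp only [hl, Finset.mul_sum]
  rw [Finset.sum_comm]
  have one : ∀ i : Fin n, ∑ w : Fin n → Σ s, Fin (M s), (∏ j, q (w j).1 / (M (w j).1 : ℝ))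
      * Real.logb 2 (M (w i).1) = ∑ s, q s * Real.logb 2 (M s) := fun i => by
    have e : ∀ w : Fin n → Σ s, Fin (M s), (∏ j, q (w j).1 / (M (w j).1 : ℝ))
        * Real.logb 2 (M (w i).1)
        = ∏ j, q (w j).1 / (M (w j).1 : ℝ) * (if j = i then Real.logb 2 (M (w j).1) else 1) :=
      fun w => by
        rw [Finset.prod_mul_distrib, Finset.prod_ite_eq' Finset.univ i
          fun j => Real.logb 2 (M (w j).1), if_pos (Finset.mem_univ i)]
    simp only [e]
    rw [← Fintype.prod_sum (f := fun (j : Fin n) (l : Σ s, Fin (M s)) =>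
        q l.1 / (M l.1 : ℝ) * if j = i then Real.logb 2 (M l.1) else 1),
      Finset.prod_eq_single i (fun j _ hj => ?_) (by simp)]
    · simp only [if_true, Fintype.sum_sigma, Finset.sum_const, Finset.card_univ, Fintype.card_fin,
        nsmul_eq_mul]
      exact Finset.sum_congr rfl fun s _ => by rw [← mul_assoc, mul_div_cancel₀ _ (hM0 s)]
    · simp only [if_neg hj, mul_one, Fintype.sum_sigma, Finset.sum_const, Finset.card_univ,
        Fintype.card_fin, nsmul_eq_mul]
      exact (Finset.sum_congr rfl fun s _ => mul_div_cancel₀ _ (hM0 s)).trans hq1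
  rw [Finset.sum_congr rfl fun i _ => one i]
  simp [Finset.mul_sum]

/-- The entropy of the compositions is at least the Lyapunov exponent. -/
theorem walkH_ge (hqpos : ∀ s, 0 < q s) :
    (n : ℝ) * ∑ s, q s * Real.logb 2 (M s)
      ≤ walkH (blockMap M ε t dig) (fun l => q l.1 / M l.1) n := by
  have hM0 : ∀ s, (0 : ℝ) < M s := fun s => Nat.cast_pos.2 (by linarith [hM s])
  rw [← mean_logb hM hq1]
  refine walkH_ge_ref (fun l => div_pos (hqpos _) (hM0 _)) ?_
    (fun w => Finset.prod_pos fun i _ => hM0 _) (cond_le hε hdig hM hq hq1)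
  rw [Fintype.sum_sigma]
  simp only [Finset.sum_const, Finset.card_univ, Fintype.card_fin, nsmul_eq_mul]
  exact (Finset.sum_congr rfl fun s _ => mul_div_cancel₀ _ (hM0 s).ne').trans hq1

end Vale.Agent.P114.Blocks
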